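import Vale.Agent.P022.H889.C.Def

/-!
# P022-CFT, block [CYC], Galois half
-/

open IsDedekindDomain NumberField

noncomputable section

namespace Vale.Agent.P022.H889.C

/-! ### norms -/

section norm

variable {K L : Type*} [Field K] [NumberField K] [Field L] [NumberField L] [Algebra K L]

/-- multiplicity of `v` in an ideal -/
def cv (v : HeightOneSpectrum (𝓞 K)) (J : Ideal (𝓞 K)) : ℤ :=
  FractionalIdeal.count K v (J : FractionalIdeal (nonZeroDivisors (𝓞 K)) K)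

theorem cv_mul (v : HeightOneSpectrum (𝓞 K)) {I J : Ideal (𝓞 K)} (hI : I ≠ ⊥) (hJ : J ≠ ⊥) :
    cv v (I * J) = cv v I + cv v J := by
  rw [cv, cv, cv, FractionalIdeal.coeIdeal_mul, FractionalIdeal.count_mul]
  · exact FractionalIdeal.coeIdeal_ne_zero.2 hI
  · exact FractionalIdeal.coeIdeal_ne_zero.2 hJ

theorem cv_top (v : HeightOneSpectrum (𝓞 K)) : cv v (⊤ : Ideal (𝓞 K)) = 0 := by
  rw [cv, FractionalIdeal.coeIdeal_top, FractionalIdeal.count_one]

theorem cv_pow (v : HeightOneSpectrum (𝓞 K)) (I : Ideal (𝓞 K)) (n : ℕ) :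
    cv v (I ^ n) = n * cv v I := by
  rw [cv, cv, FractionalIdeal.coeIdeal_pow, FractionalIdeal.count_pow]

theorem cv_self (v : HeightOneSpectrum (𝓞 K)) : cv v v.asIdeal = 1 :=
  FractionalIdeal.count_self K v

theorem cv_ne {v w : HeightOneSpectrum (𝓞 K)} (h : w ≠ v) : cv v w.asIdeal = 0 :=
  FractionalIdeal.count_maximal_coprime K v h

theorem vv_cv (v : HeightOneSpectrum (𝓞 K)) {x : 𝓞 K} (hx : x ≠ 0) :
    vv v (algebraMap (𝓞 K) K x) = cv v (Ideal.span {x}) := by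
  rw [vv_int v hx, cv, FractionalIdeal.count_coe K v]
  simpa using hx

variable {m : ℕ} {A : Type*} [AddCommGroup A] (ψ : (ZMod m)ˣ →* Multiplicative A)

theorem cv_relNorm (hL : ∀ w : HeightOneSpectrum (𝓞 L), pz ψ (Ideal.absNorm w.asIdeal) = 0)
    (v : HeightOneSpectrum (𝓞 K)) (J : Ideal (𝓞 L)) (hJ : J ≠ ⊥) :
    cv v (Ideal.relNorm (𝓞 K) J) • pz ψ (Ideal.absNorm v.asIdeal) = 0 := by
  classical
  rw [← Ideal.prod_normalizedFactors_eq_self hJ]
  have key : (UniqueFactorizationMonoid.normalizedFactors J).prod ≠ ⊥ ∧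
      cv v (Ideal.relNorm (𝓞 K) (UniqueFactorizationMonoid.normalizedFactors J).prod) •
        pz ψ (Ideal.absNorm v.asIdeal) = 0 := by
    refine Multiset.prod_induction (fun J : Ideal (𝓞 L) => J ≠ ⊥ ∧
      cv v (Ideal.relNorm (𝓞 K) J) • pz ψ (Ideal.absNorm v.asIdeal) = 0) _ ?_ ?_ ?_
    · rintro I J ⟨hI, hI'⟩ ⟨hJ, hJ'⟩
      refine ⟨mul_ne_zero hI hJ, ?_⟩
      have h1 : Ideal.relNorm (𝓞 K) I ≠ ⊥ := by rwa [Ne, Ideal.relNorm_eq_bot_iff]
      have h2 : Ideal.relNorm (𝓞 K) J ≠ ⊥ := by rwa [Ne, Ideal.relNorm_eq_bot_iff]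
      rw [map_mul, cv_mul v h1 h2, add_smul, hI', hJ', add_zero]
    · refine ⟨one_ne_zero, ?_⟩
      rw [map_one, Ideal.one_eq_top, cv_top, zero_smul]
    · intro Q hQ
      have hQ' : Q ≠ ⊥ := UniqueFactorizationMonoid.ne_zero_of_mem_normalizedFactors hQ
      rw [Ideal.mem_normalizedFactors_iff hJ] at hQ
      refine ⟨hQ', ?_⟩
      have hQp : Q.IsPrime := hQ.1
      set P : Ideal (𝓞 K) := Ideal.under (𝓞 K) Q with hP
      have hPp : P.IsPrime := Ideal.IsPrime.under (𝓞 K) Q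
      have hPQ : Q.LiesOver P := ⟨rfl⟩
      obtain ⟨f, hf⟩ := Ideal.exists_relNorm_eq_pow_of_isPrime Q P
      have hne : Ideal.relNorm (𝓞 K) Q ≠ ⊥ := by rwa [Ne, Ideal.relNorm_eq_bot_iff]
      by_cases hf0 : f = 0
      · rw [hf, hf0, pow_zero, Ideal.one_eq_top, cv_top, zero_smul]
      have hPb : P ≠ ⊥ := by
        intro h0
        rw [hf, h0, Ideal.bot_pow hf0] at hne
        exact hne rfl
      set w : HeightOneSpectrum (𝓞 K) := ⟨P, hPp, hPb⟩ with hw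
      have hwP : w.asIdeal = P := rfl
      rw [hf, cv_pow, ← hwP]
      by_cases hwv : w = v
      · rw [hwv, cv_self, mul_one, natCast_zsmul, ← pz_pow, ← map_pow, ← hwv, hwP, ← hf,
          Ideal.absNorm_relNorm]
        exact hL ⟨Q, hQp, hQ'⟩
      · rw [cv_ne hwv, mul_zero, zero_smul]
  exact key.2

/-- if `ψ` kills the norms of all primes of `L` then it kills norms from `L` at every prime -/
theorem vv_norm (hL : ∀ w : HeightOneSpectrum (𝓞 L), pz ψ (Ideal.absNorm w.asIdeal) = 0)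
    (v : HeightOneSpectrum (𝓞 K)) (c : L) :
    vv v (Algebra.norm K c) • pz ψ (Ideal.absNorm v.asIdeal) = 0 := by
  by_cases hc : c = 0
  · rw [hc, Algebra.norm_zero, vv_zero, zero_smul]
  have key : ∀ x : 𝓞 L, x ≠ 0 →
      vv v (Algebra.norm K (algebraMap (𝓞 L) L x)) • pz ψ (Ideal.absNorm v.asIdeal) = 0 := by
    intro x hx
    have h1 := Algebra.algebraMap_intNorm (A := 𝓞 K) (K := K) (L := L) (B := 𝓞 L) x
    have h2 : Algebra.intNorm (𝓞 K) (𝓞 L) x ≠ 0 := by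
      rwa [Ne, Algebra.intNorm_eq_zero]
    rw [← h1, vv_cv v h2, ← Ideal.relNorm_singleton]
    exact cv_relNorm ψ hL v _ (by simpa using hx)
  obtain ⟨x, y, hy, rfl⟩ := IsFractionRing.div_surjective (A := 𝓞 L) c
  have hy0 : y ≠ 0 := nonZeroDivisors.ne_zero hy
  have hx0 : x ≠ 0 := by
    rintro rfl
    simp at hc
  have hx1 : Algebra.norm K (algebraMap (𝓞 L) L x) ≠ 0 := by
    rw [Ne, Algebra.norm_eq_zero_iff]
    simpa using hx0
  have hy1 : Algebra.norm K (algebraMap (𝓞 L) L y) ≠ 0 := by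
    rw [Ne, Algebra.norm_eq_zero_iff]
    simpa using hy0
  have h3 : Algebra.norm K (algebraMap (𝓞 L) L x / algebraMap (𝓞 L) L y) =
      Algebra.norm K (algebraMap (𝓞 L) L x) * (Algebra.norm K (algebraMap (𝓞 L) L y))⁻¹ := by
    rw [eq_mul_inv_iff_mul_eq₀ hy1, ← map_mul, div_mul_cancel₀]
    simpa using hy0
  rw [h3, vv_mul v hx1 (inv_ne_zero hy1), vv_inv, add_smul, neg_smul, key x hx0, key y hy0]
  simp

end norm

/-! ### Frobenius elements and roots of unity -/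

section frob

variable {K C : Type*} [Field K] [NumberField K] [Field C] [NumberField C] [Algebra K C]

theorem natCast_notMem {m : ℕ} (v : HeightOneSpectrum (𝓞 K))
    (hm : (Ideal.absNorm v.asIdeal).Coprime m) : ((m : ℕ) : 𝓞 K) ∉ v.asIdeal := by
  intro h
  have h1 : ((Ideal.absNorm v.asIdeal : ℕ) : 𝓞 K) ∈ v.asIdeal := Ideal.absNorm_mem _
  have h2 := Nat.isCoprime_iff_coprime.2 hm
  obtain ⟨a, b, hab⟩ := h2
  have h3 : (1 : 𝓞 K) ∈ v.asIdeal := by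
    have h4 : ((a * (Ideal.absNorm v.asIdeal : ℤ) + b * (m : ℤ) : ℤ) : 𝓞 K) = 1 := by
      rw [hab]; simp
    rw [← h4]
    push_cast
    exact v.asIdeal.add_mem (v.asIdeal.mul_mem_left _ h1) (v.asIdeal.mul_mem_left _ h)
  exact v.isPrime.ne_top ((Ideal.eq_top_iff_one _).2 h3)

variable [IsGalois K C]

/-- `g` is a Frobenius element at the prime `P` of `C` above `v` -/
def Frb (v : HeightOneSpectrum (𝓞 K)) (P : Ideal (𝓞 C)) (g : C ≃ₐ[K] C) : Prop :=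
  ∀ x : 𝓞 C, g • x - x ^ Ideal.absNorm v.asIdeal ∈ P

theorem frb_iff {v : HeightOneSpectrum (𝓞 K)} {P : Ideal (𝓞 C)}
    (hP : P.under (𝓞 K) = v.asIdeal) (g : C ≃ₐ[K] C) :
    Frb v P g ↔ IsArithFrobAt (𝓞 K) g P := by
  have h : Nat.card (𝓞 K ⧸ P.under (𝓞 K)) = Ideal.absNorm v.asIdeal := by
    rw [hP]; rfl
  rw [Frb, IsArithFrobAt, AlgHom.IsArithFrobAt, h]
  rfl

/-- a Frobenius element acts on roots of unity of order prime to the residue characteristic by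
the norm of the prime -/
theorem frob_zeta {m : ℕ} {ζ : 𝓞 C} (hζ : ζ ^ m = 1) (v : HeightOneSpectrum (𝓞 K))
    (hm : (Ideal.absNorm v.asIdeal).Coprime m) {P : Ideal (𝓞 C)}
    (hP : P.under (𝓞 K) = v.asIdeal) {g : C ≃ₐ[K] C} (hg : Frb v P g) :
    g • ζ = ζ ^ Ideal.absNorm v.asIdeal := by
  rw [frb_iff hP] at hg
  have h1 : ((m : ℕ) : 𝓞 C) ∉ P := by
    intro h
    apply natCast_notMem v hm
    rw [← hP, Ideal.mem_comap]
    simpa using h
  have h2 := AlgHom.IsArithFrobAt.apply_of_pow_eq_one hg hζ h1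
  rw [hP] at h2
  exact h2

/-- Frobenius elements exist -/
theorem exists_frob (v : HeightOneSpectrum (𝓞 K)) (P : Ideal (𝓞 C)) (hPp : P.IsPrime)
    (hP : P.under (𝓞 K) = v.asIdeal) : ∃ g : C ≃ₐ[K] C, Frb v P g := by
  have hPb : P ≠ ⊥ := by
    rintro rfl
    apply v.ne_bot
    rw [← hP, Ideal.under_bot]
  have hfin : Finite (𝓞 C ⧸ P) := Ideal.finiteQuotientOfFreeOfNeBot P hPb
  obtain ⟨g, hg⟩ := IsArithFrobAt.exists_of_isInvariant (𝓞 K) (C ≃ₐ[K] C) P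
  exact ⟨g, (frb_iff hP g).2 hg⟩

/-- primes above `v` exist -/
theorem exists_above (C : Type*) [Field C] [NumberField C] [Algebra K C]
    (v : HeightOneSpectrum (𝓞 K)) : ∃ P : Ideal (𝓞 C), P.IsPrime ∧ P.under (𝓞 K) = v.asIdeal := by
  have hv := v.isMaximal
  obtain ⟨P, hP, hPv⟩ := Ideal.exists_maximal_ideal_liesOver_of_isIntegral (S := 𝓞 C) v.asIdeal
  exact ⟨P, hP.isPrime, hPv.over.symm⟩

/-- `ψ` kills the norms of all primes of `K` if all elements of `Gal(C/K)` act on `μ_m` through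
the kernel of `ψ` -/
theorem pz_norm {m : ℕ} {A : Type*} [AddCommGroup A] (ψ : (ZMod m)ˣ →* Multiplicative A)
    {ζ : 𝓞 C} (hζ : ζ ^ m = 1)
    (hψ : ∀ (g : C ≃ₐ[K] C) (u : (ZMod m)ˣ), g • ζ = ζ ^ (u : ZMod m).val → ψ u = 1)
    (v : HeightOneSpectrum (𝓞 K)) : pz ψ (Ideal.absNorm v.asIdeal) = 0 := by
  by_cases hm : (Ideal.absNorm v.asIdeal).Coprime m
  · obtain ⟨P, hPp, hP⟩ := exists_above C v
    obtain ⟨g, hg⟩ := exists_frob v P hPp hP
    have h1 := frob_zeta hζ v hm hP hg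
    have h2 := hψ g (ZMod.unitOfCoprime _ hm) (by
      rw [h1, ZMod.coe_unitOfCoprime, ZMod.val_natCast, ← pow_eq_pow_mod _ hζ])
    rw [pz, dif_pos hm, h2, toAdd_one]
  · rw [pz, dif_neg hm]

end frob

/-! ### the statement of the block -/

section cyc

variable {K Z C : Type*} [Field K] [NumberField K] [Field Z] [NumberField Z] [Field C]
  [NumberField C] [Algebra K Z] [Algebra Z C] [IsGalois Z C]

/-- norms from `Z`, where `Z` is the field of `ψ` inside `C ∋ ζ` -/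
theorem norm_zero {m : ℕ} {A : Type*} [AddCommGroup A] (ψ : (ZMod m)ˣ →* Multiplicative A)
    {ζ : 𝓞 C} (hζ : ζ ^ m = 1)
    (hψ : ∀ (g : C ≃ₐ[Z] C) (u : (ZMod m)ˣ), g • ζ = ζ ^ (u : ZMod m).val → ψ u = 1)
    (v : HeightOneSpectrum (𝓞 K)) (c : Z) :
    vv v (Algebra.norm K c) • pz ψ (Ideal.absNorm v.asIdeal) = 0 :=
  vv_norm ψ (pz_norm ψ hζ hψ) v c

/-- **[CYC]** from the rational half: `β = N(c) b` with `b ≡ 1` modulo `m` -/
theorem cyc {m : ℕ} {A : Type*} [AddCommGroup A] (ψ : (ZMod m)ˣ →* Multiplicative A)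
    {ζ : 𝓞 C} (hζ : ζ ^ m = 1)
    (hψ : ∀ (g : C ≃ₐ[Z] C) (u : (ZMod m)ˣ), g • ζ = ζ ^ (u : ZMod m).val → ψ u = 1)
    {b : K} (hb0 : b ≠ 0)
    (hb : ∑ᶠ v : HeightOneSpectrum (𝓞 K), vv v b • pz ψ (Ideal.absNorm v.asIdeal) = 0)
    {c : Z} (hc : c ≠ 0) {β : K} (hβ : β = Algebra.norm K c * b) :
    ∑ᶠ v : HeightOneSpectrum (𝓞 K), vv v β • pz ψ (Ideal.absNorm v.asIdeal) = 0 := by
  rw [← hb]
  refine finsum_congr fun v => ?_
  have hc' : Algebra.norm K c ≠ 0 := by rwa [Ne, Algebra.norm_eq_zero_iff]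
  rw [hβ, vv_mul v hc' hb0, add_smul, norm_zero ψ hζ hψ v c, zero_add]

/-- at a prime `v` where `β` is a norm from `Z` up to a unit the term vanishes -/
theorem cyc_at {m : ℕ} {A : Type*} [AddCommGroup A] (ψ : (ZMod m)ˣ →* Multiplicative A)
    {ζ : 𝓞 C} (hζ : ζ ^ m = 1)
    (hψ : ∀ (g : C ≃ₐ[Z] C) (u : (ZMod m)ˣ), g • ζ = ζ ^ (u : ZMod m).val → ψ u = 1)
    (v : HeightOneSpectrum (𝓞 K)) {c : Z} {β : K} (hβ : vv v β = vv v (Algebra.norm K c)) :
    vv v β • pz ψ (Ideal.absNorm v.asIdeal) = 0 := by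
  rw [hβ]
  exact norm_zero ψ hζ hψ v c

end cyc

end Vale.Agent.P022.H889.C
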