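import Mathlib

/-!
# P022-CFT, block [CYC]: definitions
-/

open IsDedekindDomain NumberField

noncomputable section

namespace Vale.Agent.P022.H889.C

section

variable {K : Type*} [Field K] [NumberField K]

/-- the normalized additive valuation at `v` (`0` at `0`) -/
def vv (v : HeightOneSpectrum (𝓞 K)) (x : K) : ℤ := -(WithZero.log (v.valuation K x))

theorem vv_mul (v : HeightOneSpectrum (𝓞 K)) {x y : K} (hx : x ≠ 0) (hy : y ≠ 0) :
    vv v (x * y) = vv v x + vv v y := by
  have h1 : v.valuation K x ≠ 0 := (Valuation.ne_zero_iff _).2 hx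
  have h2 : v.valuation K y ≠ 0 := (Valuation.ne_zero_iff _).2 hy
  rw [vv, vv, vv, map_mul, WithZero.log_mul h1 h2]
  ring

@[simp] theorem vv_one (v : HeightOneSpectrum (𝓞 K)) : vv v (1 : K) = 0 := by
  simp [vv]

@[simp] theorem vv_zero (v : HeightOneSpectrum (𝓞 K)) : vv v (0 : K) = 0 := by
  simp [vv]

theorem vv_inv (v : HeightOneSpectrum (𝓞 K)) (x : K) : vv v x⁻¹ = -vv v x := by
  rw [vv, vv, map_inv₀, WithZero.log_inv]

/-- `vv v x` for an integral `x` is the multiplicity of `v` in `(x)` -/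
theorem vv_int (v : HeightOneSpectrum (𝓞 K)) {x : 𝓞 K} (hx : x ≠ 0) :
    vv v (algebraMap (𝓞 K) K x) =
      ((Associates.mk v.asIdeal).count (Associates.mk (Ideal.span {x})).factors : ℤ) := by
  rw [vv, HeightOneSpectrum.valuation_of_algebraMap, HeightOneSpectrum.intValuation_if_neg v hx]
  rw [WithZero.log_exp]
  simp

end

/-- a character of `(ℤ / m)ˣ` with values in an additive group, on the natural numbers; `0` on the
numbers which are not prime to `m` -/
def pz {m : ℕ} {A : Type*} [AddCommGroup A] (ψ : (ZMod m)ˣ →* Multiplicative A) (n : ℕ) : A :=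
  if h : n.Coprime m then Multiplicative.toAdd (ψ (ZMod.unitOfCoprime n h)) else 0

section

variable {m : ℕ} {A : Type*} [AddCommGroup A] (ψ : (ZMod m)ˣ →* Multiplicative A)

theorem pz_mul {a b : ℕ} (ha : a.Coprime m) (hb : b.Coprime m) :
    pz ψ (a * b) = pz ψ a + pz ψ b := by
  have hab : (a * b).Coprime m := Nat.Coprime.mul_left ha hb
  rw [pz, pz, pz, dif_pos ha, dif_pos hb, dif_pos hab, ← toAdd_mul, ← map_mul]
  congr 2
  ext
  simp

@[simp] theorem pz_one : pz ψ 1 = 0 := by
  have h : (1 : ℕ).Coprime m := Nat.coprime_one_left m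
  rw [pz, dif_pos h]
  have : ZMod.unitOfCoprime 1 h = 1 := by ext; simp
  rw [this, map_one, toAdd_one]

theorem pz_pow {a : ℕ} (n : ℕ) : pz ψ (a ^ n) = n • pz ψ a := by
  by_cases ha : a.Coprime m
  · induction n with
    | zero => simp
    | succ n IH => rw [pow_succ, pz_mul ψ (Nat.Coprime.pow_left n ha) ha, IH, succ_nsmul]
  · rcases Nat.eq_zero_or_pos n with rfl | hn
    · simp
    · have h2 : ¬ (a ^ n).Coprime m := fun h => ha (Nat.Coprime.coprime_dvd_left (dvd_pow_self a hn.ne') h)
      rw [pz, dif_neg h2, pz, dif_neg ha, smul_zero]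

end

end Vale.Agent.P022.H889.C
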