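import Mathlib

/-!
# P022-CFT, block [E]: cyclotomic characters of prime power order with large values at given primes
-/

noncomputable section

namespace Vale.Agent.P022.H889.C

/-- a prime `q ≠ l` dividing `1 + x + ... + x^(l-1)` for `x = p^(l^(A-1))`, `A ≥ 2` -/
theorem exists_prime_dvd_geom {l : ℕ} (hl : l.Prime) {p : ℕ} (hp : 2 ≤ p) (A : ℕ) :
    ∃ q : ℕ, q.Prime ∧ q ≠ l ∧ q ∣ ∑ i ∈ Finset.range l, (p ^ l ^ (A + 1)) ^ i := by
  have : Fact l.Prime := ⟨hl⟩
  set x := p ^ l ^ (A + 1) with hx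
  set S := ∑ i ∈ Finset.range l, x ^ i with hS
  have hx2 : 2 ≤ x := le_trans hp (Nat.le_self_pow (pow_ne_zero _ hl.ne_zero) p)
  have hSl : l < S := by
    have h1 : ∑ i ∈ Finset.range l, 1 < S := by
      refine Finset.sum_lt_sum (fun i _ => Nat.one_le_pow _ _ (by omega)) ⟨1, ?_, ?_⟩
      · exact Finset.mem_range.2 hl.one_lt
      · rw [pow_one]; omega
    simpa using h1
  by_contra hcon
  push Not at hcon
  have h1 : S = l ^ S.primeFactorsList.length := by
    refine Nat.eq_prime_pow_of_unique_prime_dvd (by omega) fun {d} hd hdS => ?_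
    by_contra hne
    exact hcon d hd hne hdS
  have h2 : l ∣ S := by
    have h3 : S.primeFactorsList.length ≠ 0 := by
      intro h0
      rw [h0, pow_zero] at h1
      have := hl.two_le
      omega
    rw [h1]
    exact dvd_pow_self l h3
  have hgeom : S * (x - 1) = x ^ l - 1 := by
    have := Nat.geomSum_eq (m := x) hx2 l
    rw [hS, this]
    refine Nat.div_mul_cancel ?_
    exact Nat.sub_one_dvd_pow_sub_one _ _
  have h4 : ((x : ℕ) : ZMod l) = 1 := by
    have h5 : ((x ^ l - 1 : ℕ) : ZMod l) = 0 := by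
      rw [ZMod.natCast_eq_zero_iff, ← hgeom]
      exact Dvd.dvd.mul_right h2 _
    rw [Nat.cast_sub (Nat.one_le_pow _ _ (by omega)), Nat.cast_pow, Nat.cast_one, ZMod.pow_card,
      sub_eq_zero] at h5
    exact h5
  have h6 : ¬ l ^ 2 ∣ S := by
    intro h7
    rcases hl.eq_two_or_odd' with h8 | h8
    · -- `l = 2`
      have h9 : S = 1 + x := by
        rw [hS, h8]; simp [Finset.sum_range_succ]
      have h10 : x = (p ^ l ^ A) ^ 2 := by
        rw [hx, ← pow_mul, pow_succ, h8]
      rw [h8, h9, h10] at h7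
      obtain ⟨k, hk⟩ := h7
      have h11 : ∀ y : ℕ, (1 + y ^ 2) % 4 ≠ 0 := by
        intro y
        have : y % 4 < 4 := Nat.mod_lt _ (by norm_num)
        rw [Nat.add_mod, Nat.pow_mod]
        interval_cases (y % 4) <;> simp
      exact h11 (p ^ l ^ A) (by omega)
    · have h9 : l ∣ x - 1 := by
        rw [← ZMod.natCast_eq_zero_iff, Nat.cast_sub (by omega), h4]
        simp
      have h10 : ¬ l ∣ x := by
        rw [← ZMod.natCast_eq_zero_iff, h4]
        exact one_ne_zero
      have h11 := padicValNat.pow_sub_pow (p := l) (x := x) (y := 1) h8 (by omega) h9 h10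
        (n := l) hl.ne_zero
      rw [one_pow, ← hgeom, padicValNat.mul (by omega) (by omega), padicValNat_self] at h11
      have h12 : padicValNat l S = 1 := by omega
      rw [padicValNat_dvd_iff_le (by omega)] at h7
      omega
  have h13 : S.primeFactorsList.length < 2 := by
    by_contra hge
    apply h6
    rw [h1]
    exact pow_dvd_pow l (by omega)
  have h14 : S ≤ l := by
    rw [h1]
    calc l ^ S.primeFactorsList.length ≤ l ^ 1 := Nat.pow_le_pow_right hl.pos (by omega)
      _ = l := pow_one l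
  omega

/-- a prime `q` for which `p` has order `l^(A+2)` -/
theorem exists_prime_orderOf {l : ℕ} (hl : l.Prime) {p : ℕ} (hp : 2 ≤ p) (A : ℕ) :
    ∃ q : ℕ, q.Prime ∧ q ≠ l ∧ orderOf (p : ZMod q) = l ^ (A + 2) := by
  obtain ⟨q, hq, hql, hd⟩ := exists_prime_dvd_geom hl hp A
  refine ⟨q, hq, hql, ?_⟩
  have : Fact q.Prime := ⟨hq⟩
  have : Fact l.Prime := ⟨hl⟩
  set x : ZMod q := (p : ZMod q) ^ l ^ (A + 1) with hx
  have h1 : ∑ i ∈ Finset.range l, x ^ i = 0 := by
    have h2 := (ZMod.natCast_eq_zero_iff _ q).2 hd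
    push_cast at h2
    exact h2
  have h2 : x ≠ 1 := by
    intro h3
    rw [h3] at h1
    simp at h1
    rw [ZMod.natCast_eq_zero_iff] at h1
    exact hql ((Nat.prime_dvd_prime_iff_eq hq hl).1 h1)
  have h3 : x ^ l = 1 := by
    have h4 := geom_sum_mul x l
    rw [h1, zero_mul] at h4
    exact (sub_eq_zero.1 h4.symm)
  refine orderOf_eq_prime_pow h2 ?_
  rw [pow_succ, pow_mul]
  exact h3

/-- ... outside a given finite set, with large order -/
theorem exists_prime_orderOf_notMem {l : ℕ} (hl : l.Prime) {p : ℕ} (hp : 2 ≤ p) (B : Finset ℕ)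
    (n : ℕ) : ∃ q : ℕ, q.Prime ∧ q ∉ B ∧ ∃ A, n ≤ A ∧ orderOf (p : ZMod q) = l ^ A := by
  choose q hq hql ho using exists_prime_orderOf hl hp
  have hinj : Function.Injective fun A => q (A + n) := by
    intro A A' h
    have h1 := ho (A + n)
    have h2 := ho (A' + n)
    dsimp only at h
    rw [h, h2] at h1
    have h3 := Nat.pow_right_injective hl.two_le h1
    omega
  obtain ⟨y, ⟨A, rfl⟩, hy⟩ := (Set.infinite_range_of_injective hinj).exists_notMem_finset B
  exact ⟨q (A + n), hq _, hy, A + n + 2, by omega, ho _⟩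

end Vale.Agent.P022.H889.C
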